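import Vale.Agent.P181.RH.Defs
import Vale.Agent.P181.TL.H214.UpB
import Vale.Agent.P181.H539.Growth
import Vale.Agent.P181.H539.Upper

set_option autoImplicit false

/-!
# P181, RH [CORE]: `ParRH → LowRH → NumRH → HalfRG → CoreRH`
-/

namespace Vale.Agent.P181.RH.H694

open Finset Vale.Agent.P181 Vale.Agent.P181.H280 Vale.Agent.P181.H463 Vale.Agent.P181.H19

/-- the upper bound and the growth; only the rows `≥ 2` matter -/
lemma upper2 (hHalf : RG.HalfRG) (a b M n l N g0 : ℕ) (lam η : Fin (n + 2) → ℕ) (hna : n ≤ a)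
    (ha : 0 < a) (haM : a ≤ M) (hln : l ≤ n) (hlam : Antitone lam) (hη : Antitone η)
    (hgap : ∀ i : Fin n, (i : ℕ) < l → N ≤ η i.succ.succ ∧
      ∀ j : Fin n, l ≤ (j : ℕ) → N + η j.succ.succ ≤ η i.succ.succ)
    (hsplit : ∀ i : Fin n, lam i.succ.succ = η i.succ.succ + if (i : ℕ) < l then N else 0)
    (hg0 : ∀ i : Fin n, (i : ℕ) < l → g0 ≤ η i.succ.succ) :
    plethMult a b (n + 2) lam ≤ (a + b).choose a * (2 ^ (l * a) *
      gt n a (fun i : Fin n => η i.succ.succ)) ∧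
    (gt n a (fun i : Fin n => η i.succ.succ) : ℝ) * (1 + (g0 : ℝ) / (M : ℝ)) ^ (l * (M - a)) ≤
      gt n M (fun i : Fin n => η i.succ.succ) := by
  have hlam2 : Antitone (fun i : Fin n => lam i.succ.succ) :=
    fun i j h => hlam (Fin.succ_le_succ_iff.2 (Fin.succ_le_succ_iff.2 h))
  have hη2 : Antitone (fun i : Fin n => η i.succ.succ) :=
    fun i j h => hη (Fin.succ_le_succ_iff.2 (Fin.succ_le_succ_iff.2 h))
  have hup2 := H539.finrank_HW_le_gt n a hlam2
  have hrem := hHalf n l a N (fun i : Fin n => lam i.succ.succ) (fun i : Fin n => η i.succ.succ)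
    hη2 hln hna hsplit hgap
  refine ⟨(TL.H214.upB a b n lam).trans (Nat.mul_le_mul le_rfl (hup2.trans hrem)), ?_⟩
  exact H539.gt_growth_rows (n := n) (a := a) (N := M) (l := l) (n0 := g0)
    (lam := fun i : Fin n => η i.succ.succ) hna ha haM hη2 hln hg0

/-- the sizes of the classes -/
lemma sum_ff (l f₀ f₂ : ℕ) : ∑ r : Fin (l + 2), ff (l + 2) f₀ f₂ r ≤ 2 * f₀ + l * f₂ := by
  rw [Fin.sum_univ_succ, Fin.sum_univ_succ]
  have h1 : ff (l + 2) f₀ f₂ 0 ≤ f₀ := by
    unfold ff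
    have e : ((0 : Fin (l + 2)) : ℕ) = 0 := rfl
    rw [e, if_pos (by norm_num)]
    omega
  have h2 : ff (l + 2) f₀ f₂ (Fin.succ 0) ≤ f₀ := by
    unfold ff
    have e : ((Fin.succ 0 : Fin (l + 2)) : ℕ) = 1 := rfl
    rw [e, if_pos (by norm_num)]
    omega
  have h3 : ∑ i : Fin l, ff (l + 2) f₀ f₂ i.succ.succ ≤ l * f₂ := by
    calc ∑ i : Fin l, ff (l + 2) f₀ f₂ i.succ.succ ≤ ∑ _i : Fin l, f₂ := by
          refine sum_le_sum fun i _ => ?_
          unfold ff
          have e : ((i.succ.succ : Fin (l + 2)) : ℕ) = i + 2 := rfl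
          rw [e, if_neg (by omega)]
          omega
      _ = l * f₂ := by rw [sum_const, card_univ, Fintype.card_fin, smul_eq_mul]
  omega

/-- the columns are removed -/
lemma removal (n m A B : ℕ) (lam : Fin (n + 2) → ℕ) (hlam : Antitone lam)
    (h0 : ∀ i : Fin (n + 2), (i : ℕ) < 2 → A + B ≤ lam i ∧
      ∀ j : Fin (n + 2), 2 ≤ (j : ℕ) → A + B + lam j ≤ lam i)
    (h1 : ∀ i : Fin (n + 2), (i : ℕ) < m → B ≤ lam i ∧
      ∀ j : Fin (n + 2), m ≤ (j : ℕ) → B + lam j ≤ lam i) (hm : 2 ≤ m) :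
    ∃ η : Fin (n + 2) → ℕ, (∀ i : Fin (n + 2), (if (i : ℕ) < 2 then A else 0) +
      (if (i : ℕ) < m then B else 0) + η i = lam i) ∧ Antitone η := by
  have key : ∀ i : Fin (n + 2), (if (i : ℕ) < 2 then A else 0) +
      (if (i : ℕ) < m then B else 0) ≤ lam i := by
    intro i
    by_cases h2 : (i : ℕ) < 2
    · rw [if_pos h2, if_pos (by omega)]
      exact (h0 i h2).1
    · rw [if_neg h2]
      by_cases h3 : (i : ℕ) < m
      · rw [if_pos h3, zero_add]
        exact (h1 i h3).1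
      · rw [if_neg h3]
        omega
  refine ⟨fun i => lam i - ((if (i : ℕ) < 2 then A else 0) + (if (i : ℕ) < m then B else 0)),
    fun i => ?_, fun i j hij => ?_⟩
  · have := key i
    simp only
    omega
  · have hij' : (i : ℕ) ≤ j := hij
    have h5 := hlam hij
    have ki := key i
    have kj := key j
    simp only
    by_cases hj2 : (j : ℕ) < 2
    · have hi2 : (i : ℕ) < 2 := by omega
      rw [if_pos hj2, if_pos hi2, if_pos (by omega : (j : ℕ) < m),
        if_pos (by omega : (i : ℕ) < m)]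
      omega
    · rw [if_neg hj2]
      by_cases hi2 : (i : ℕ) < 2
      · rw [if_pos hi2, if_pos (by omega : (i : ℕ) < m)]
        have := (h0 i hi2).2 j (by omega)
        omega
      · rw [if_neg hi2]
        by_cases hjm : (j : ℕ) < m
        · rw [if_pos hjm, if_pos (by omega : (i : ℕ) < m)]
          omega
        · rw [if_neg hjm]
          by_cases him : (i : ℕ) < m
          · rw [if_pos him]
            have := (h1 i him).2 j (by omega)
            omega
          · rw [if_neg him]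
            omega

/-- the last step -/
lemma last (l a M Ga GM P Q C Z G : ℕ) (g : ℝ) (hg : 0 < g) (hG : 0 < G)
    (hup : P ≤ C * (2 ^ (l * a) * Ga)) (hgrow : (Ga : ℝ) * g ≤ GM)
    (hlow : G ^ (2 * M) * GM ≤ Z * Q)
    (hN : ((C * 2 ^ (l * a) * Z : ℕ) : ℝ) ≤ (G : ℝ) ^ (2 * M) * g) : P ≤ Q := by
  have hGp : (0 : ℝ) < (G : ℝ) ^ (2 * M) := by
    have : (0 : ℝ) < G := by exact_mod_cast hG
    positivity
  have hup' : (P : ℝ) ≤ C * (2 ^ (l * a) * Ga) := by exact_mod_cast hup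
  have hlow' : (G : ℝ) ^ (2 * M) * GM ≤ Z * Q := by exact_mod_cast hlow
  push_cast at hN
  have hQ : (0 : ℝ) ≤ Q := Nat.cast_nonneg _
  have hC : (0 : ℝ) ≤ C * 2 ^ (l * a) := by positivity
  have h1 : (P : ℝ) * ((G : ℝ) ^ (2 * M) * g) ≤
      (C * 2 ^ (l * a)) * ((G : ℝ) ^ (2 * M) * (Ga * g)) := by
    refine (mul_le_mul_of_nonneg_right hup' (mul_pos hGp hg).le).trans_eq ?_
    ring
  have h2 : (C * 2 ^ (l * a) : ℝ) * ((G : ℝ) ^ (2 * M) * (Ga * g)) ≤
      (C * 2 ^ (l * a)) * (Z * Q) :=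
    mul_le_mul_of_nonneg_left ((mul_le_mul_of_nonneg_left hgrow hGp.le).trans hlow') hC
  have h3 : (C * 2 ^ (l * a) : ℝ) * (Z * Q) ≤ ((G : ℝ) ^ (2 * M) * g) * Q := by
    refine le_trans (le_of_eq ?_) (mul_le_mul_of_nonneg_right hN hQ)
    ring
  have h4 : (P : ℝ) * ((G : ℝ) ^ (2 * M) * g) ≤ Q * ((G : ℝ) ^ (2 * M) * g) := by
    refine (h1.trans (h2.trans h3)).trans_eq ?_
    ring
  exact_mod_cast le_of_mul_le_mul_right h4 (mul_pos hGp hg)

/-- **[CORE]** -/
theorem coreRH (hPar : ParRH) (hLow : LowRH) (hNum : NumRH) (hHalf : RG.HalfRG) : CoreRH := by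
  intro δ hδ hδ1
  obtain ⟨X₁, hpar⟩ := hPar δ hδ hδ1
  obtain ⟨K₁, X₂, hnum⟩ := hNum δ hδ hδ1
  refine ⟨K₁ + 100, X₁ + X₂ + 4, ?_⟩
  intro a b X m n lam hX hXa hlam hsum hna hab hbX hm3 hmX hmn hgap2 hgapm
  have hX4 : 4 ≤ X := by omega
  have hXpos : 0 < X := by omega
  have hX100 : X ^ 100 ≤ a := (Nat.pow_le_pow_right hXpos (by omega)).trans hXa
  have hXX : X ^ 2 ≤ a := (Nat.pow_le_pow_right hXpos (by norm_num)).trans hX100
  have haX : 4 * X ≤ a := by nlinarith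
  have ha1 : 1 ≤ a := by omega
  obtain ⟨u, D1, D2, R2, R3, f₀, f₂, F₀, F₂, T, s, hND, hub, hu, h2X, hL3⟩ :=
    hpar a b X m (by omega) hX100 hab hbX hm3 hmX
  obtain ⟨A, hA⟩ : ∃ A, A = u * D1 + R2 := ⟨_, rfl⟩
  obtain ⟨B, hB⟩ : ∃ B, B = u * D2 + R3 := ⟨_, rfl⟩
  rw [← hA, ← hB] at h2X
  rw [← hB] at hL3
  -- sizes
  have hau : a + 2 ≤ u := by
    have h1 : ((a + 2 : ℕ) : ℝ) ≤ u := by
      push_cast
      have : 0 ≤ δ / 2 * (a : ℝ) := by positivity
      linarith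
    exact_mod_cast h1
  obtain ⟨l, rfl⟩ : ∃ l, m = l + 2 := ⟨m - 2, by omega⟩
  obtain ⟨M, rfl⟩ : ∃ M, u = M + 2 := ⟨u - 2, by omega⟩
  have hb2u : b ≤ 2 * (M + 2) := by
    have h1 := sum_ff l f₀ f₂
    have h2 : 8 * (f₀ + (l + 2) * f₂) + 4 ≤ a := hND.2.2.2.2.2.2.2.2.2.2.2.1
    have h3 : (l + 2) * f₂ = l * f₂ + 2 * f₂ := by ring
    rw [h3] at h2
    omega
  have hub' : M + 2 ≤ b := by omega
  -- the row 1
  have hK14 : X ^ 14 * a ≤ X ^ (K₁ + 100) * a :=
    Nat.mul_le_mul (Nat.pow_le_pow_right hXpos (by omega)) le_rfl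
  have hK2 : 2 * (X ^ 14 * a) ≤ X ^ (K₁ + 100) * a := by
    calc 2 * (X ^ 14 * a) ≤ X * (X ^ 14 * a) := Nat.mul_le_mul (by omega) le_rfl
      _ = X ^ 15 * a := by ring
      _ ≤ _ := Nat.mul_le_mul (Nat.pow_le_pow_right hXpos (by omega)) le_rfl
  have hgapAB : ∀ j : Fin (n + 2), 2 ≤ (j : ℕ) → 2 * (A + B) + lam j ≤ lam 1 := by
    intro j hj
    have h1 := hgap2 j hj
    have h2 : X * (2 * (A + B) + lam j) ≤ X * lam 1 := by
      calc X * (2 * (A + B) + lam j) = 2 * X * (A + B) + X * lam j := by ring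
        _ ≤ a ^ 2 + X * lam j := Nat.add_le_add_right h2X _
        _ ≤ _ := h1
    exact Nat.le_of_mul_le_mul_left h2 hXpos
  have hn1 : 1 ≤ n := by omega
  have h2AB : 2 * (A + B) ≤ lam 1 := by
    have := hgapAB ⟨2, by omega⟩ le_rfl
    omega
  have h10 : ∀ i : Fin (n + 2), (i : ℕ) < 2 → lam 1 ≤ lam i := by
    intro i hi
    refine hlam ?_
    rw [Fin.le_def]
    have h1 : ((1 : Fin (n + 2)) : ℕ) = 1 := Fin.val_one n
    rw [h1]
    omega
  obtain ⟨η, hsplit, hη⟩ := removal n (l + 2) A B lam hlam (fun i hi => by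
      have h1 := h10 i hi
      refine ⟨by omega, fun j hj => ?_⟩
      have h2 := hgapAB j hj
      omega) (fun i hi => by
      obtain ⟨h1, h2⟩ := hgapm i hi
      refine ⟨by omega, fun j hj => ?_⟩
      have h3 := h2 j hj
      omega) (by omega)
  have hηle : ∀ i, η i ≤ lam i := fun i => by
    have := hsplit i
    omega
  have hη1 : A + B + η 1 = lam 1 := by
    have h := hsplit 1
    have h1 : ((1 : Fin (n + 2)) : ℕ) = 1 := Fin.val_one n
    rw [h1, if_pos (by norm_num), if_pos (by omega)] at h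
    exact h
  -- the number G
  obtain ⟨G, hG⟩ : ∃ G, G = a ^ 2 / (2 * X) := ⟨_, rfl⟩
  have hG1 : 2 * X * G ≤ a ^ 2 := by
    rw [hG]
    exact Nat.mul_div_le _ _
  have hG2 : a ^ 2 ≤ 2 * X * (G + 1) := by
    rw [hG]
    exact (Nat.lt_mul_div_succ _ (by omega)).le
  have hGpos : 0 < G := by
    rw [hG]
    refine Nat.div_pos ?_ (by omega)
    nlinarith
  have hGη : ∀ i : Fin (n + 2), 2 ≤ (i : ℕ) → G + η i ≤ η 1 := by
    intro i hi
    have h1 := hgap2 i hi
    have h2 := hηle i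
    have h3 : 2 * X * (G + η i) ≤ 2 * X * η 1 := by
      have e1 : 2 * X * lam 1 = 2 * X * (A + B) + 2 * X * η 1 := by
        rw [← hη1]
        ring
      have e2 : 2 * X * η i ≤ 2 * X * lam i := Nat.mul_le_mul le_rfl h2
      have e3 : 2 * X * (G + η i) = 2 * X * G + 2 * X * η i := by ring
      have e4 : 2 * X * lam 1 = 2 * (X * lam 1) := by ring
      have e5 : 2 * X * lam i = 2 * (X * lam i) := by ring
      omega
    exact Nat.le_of_mul_le_mul_left h3 (by omega)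
  have hGη1 : G ≤ η 1 := by
    have := hGη ⟨2, by omega⟩ le_rfl
    omega
  -- the lower bound
  have hlow := hLow n a b (M + 2) (l + 2) D1 D2 R2 R3 f₀ f₂ F₀ F₂ T s G lam η hND hub hmn
    (by omega) (by omega) hsum hη (by rw [← hA, ← hB]; exact hsplit) hGη hGη1
  -- rows ≥ 2
  have hηrow : ∀ i : Fin n, (if (i : ℕ) < l then B else 0) + η i.succ.succ = lam i.succ.succ := by
    intro i
    have h := hsplit i.succ.succ
    have e : ((i.succ.succ : Fin (n + 2)) : ℕ) = i + 2 := rfl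
    rw [e, if_neg (by omega), zero_add] at h
    by_cases hi : (i : ℕ) < l
    · rw [if_pos (by omega)] at h
      rw [if_pos hi]
      exact h
    · rw [if_neg (by omega)] at h
      rw [if_neg hi]
      exact h
  obtain ⟨y, hy⟩ : ∃ y, y = X ^ (K₁ + 100) * a - X ^ 14 * a := ⟨_, rfl⟩
  have hyη : ∀ i : Fin n, (i : ℕ) < l → y ≤ η i.succ.succ := by
    intro i hi
    have h1 := hηrow i
    rw [if_pos hi] at h1
    have h2 := (hgapm i.succ.succ (by
      have e : ((i.succ.succ : Fin (n + 2)) : ℕ) = i + 2 := rfl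
      omega)).1
    omega
  obtain ⟨hup, hgrow⟩ := upper2 hHalf a b M n l B y lam η (by omega) (by omega) (by omega)
    (by omega) hlam hη (fun i hi => by
      have h1 := hηrow i
      rw [if_pos hi] at h1
      obtain ⟨h2, h3⟩ := hgapm i.succ.succ (by
        have e : ((i.succ.succ : Fin (n + 2)) : ℕ) = i + 2 := rfl
        omega)
      refine ⟨by omega, fun j hj => ?_⟩
      have h4 := h3 j.succ.succ (by
        have e : ((j.succ.succ : Fin (n + 2)) : ℕ) = j + 2 := rfl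
        omega)
      have h5 := hηle j.succ.succ
      omega) (fun i => by
      have h1 := hηrow i
      omega) hyη
  -- the numbers
  have hKy : X ^ K₁ * a ≤ 2 * y := by
    have h1 : X ^ K₁ * a ≤ X ^ (K₁ + 100) * a :=
      Nat.mul_le_mul (Nat.pow_le_pow_right hXpos (by omega)) le_rfl
    omega
  have hN := hnum a b X (l + 2) (M + 2) y G (by omega) hX100 hu hub' hb2u hbX hm3 hmX hKy hG2
  have e1 : M + 2 - 2 = M := by omega
  have e2 : l + 2 - 2 = l := by omega
  rw [e1, e2] at hN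
  rw [e1] at hlow
  have hgpos : (0 : ℝ) < (1 + (y : ℝ) / (M : ℝ)) ^ (l * (M - a)) := by positivity
  exact last l a M (gt n a (fun i : Fin n => η i.succ.succ))
    (gt n M (fun i : Fin n => η i.succ.succ)) _ _ _ _ G _ hgpos hGpos hup hgrow hlow hN

end Vale.Agent.P181.RH.H694
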