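import Vale.Agent.P181.RH.UDefs
import Vale.Agent.P181.RH.H694.Core

set_option autoImplicit false

/-!
# P181, RHU [COREU]: `ParRHU → LowRH → NumRHU → HalfRG → CoreRHU`
-/

namespace Vale.Agent.P181.RH.H694

open Finset Vale.Agent.P181 Vale.Agent.P181.H280 Vale.Agent.P181.H463 Vale.Agent.P181.H19

/-- **[COREU]** -/
theorem coreRHU (hPar : ParRHU) (hLow : LowRH) (hNum : NumRHU) (hHalf : RG.HalfRG) :
    CoreRHU := by
  intro δ K a b X m n lam hδ hδ1 hK hX hXδ hXa hlam hsum hna hab hbX hm3 hmX hmn hgap2 hgapm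
  obtain ⟨K₁, rfl⟩ : ∃ K₁, K = K₁ + 100 := by
    refine ⟨K - 100, ?_⟩
    have h1 : (0 : ℝ) < 68 / δ := by positivity
    have h2 : ((100 : ℕ) : ℝ) ≤ K := by
      push_cast
      linarith
    have h3 : 100 ≤ K := by exact_mod_cast h2
    omega
  have hK₁ : 68 / δ + 2 ≤ K₁ := by
    push_cast at hK
    linarith
  have hX4 : 4 ≤ X := by omega
  have hXpos : 0 < X := by omega
  have hX100 : X ^ 100 ≤ a := (Nat.pow_le_pow_right hXpos (by omega)).trans hXa
  have hXX : X ^ 2 ≤ a := (Nat.pow_le_pow_right hXpos (by norm_num)).trans hX100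
  have haX : 4 * X ≤ a := by nlinarith
  have ha1 : 1 ≤ a := by omega
  obtain ⟨u, D1, D2, R2, R3, f₀, f₂, F₀, F₂, T, s, hND, hub, hu, h2X, hL3⟩ :=
    hPar δ a b X m hδ hδ1 hX hXδ hX100 hab hbX hm3 hmX
  obtain ⟨A, hA⟩ : ∃ A, A = u * D1 + R2 := ⟨_, rfl⟩
  obtain ⟨B, hB⟩ : ∃ B, B = u * D2 + R3 := ⟨_, rfl⟩
  rw [← hA, ← hB] at h2X
  rw [← hB] at hL3
  -- sizes
  have hau : a + 2 ≤ u := by
    have h1 : ((a + 2 : ℕ) : ℝ) ≤ u := by
      push_cast
      have : 0 ≤ δ / 2 * (a : ℝ) := by positivity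
      linarith
    exact_mod_cast h1
  obtain ⟨l, rfl⟩ : ∃ l, m = l + 2 := ⟨m - 2, by omega⟩
  obtain ⟨M, rfl⟩ : ∃ M, u = M + 2 := ⟨u - 2, by omega⟩
  have hb2u : b ≤ 2 * (M + 2) := by
    have h1 := sum_ff l f₀ f₂
    have h2 : 8 * (f₀ + (l + 2) * f₂) + 4 ≤ a := hND.2.2.2.2.2.2.2.2.2.2.2.1
    have h3 : (l + 2) * f₂ = l * f₂ + 2 * f₂ := by ring
    rw [h3] at h2
    omega
  have hub' : M + 2 ≤ b := by omega
  -- the row 1
  have hK14 : X ^ 14 * a ≤ X ^ (K₁ + 100) * a :=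
    Nat.mul_le_mul (Nat.pow_le_pow_right hXpos (by omega)) le_rfl
  have hK2 : 2 * (X ^ 14 * a) ≤ X ^ (K₁ + 100) * a := by
    calc 2 * (X ^ 14 * a) ≤ X * (X ^ 14 * a) := Nat.mul_le_mul (by omega) le_rfl
      _ = X ^ 15 * a := by ring
      _ ≤ _ := Nat.mul_le_mul (Nat.pow_le_pow_right hXpos (by omega)) le_rfl
  have hgapAB : ∀ j : Fin (n + 2), 2 ≤ (j : ℕ) → 2 * (A + B) + lam j ≤ lam 1 := by
    intro j hj
    have h1 := hgap2 j hj
    have h2 : X * (2 * (A + B) + lam j) ≤ X * lam 1 := by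
      calc X * (2 * (A + B) + lam j) = 2 * X * (A + B) + X * lam j := by ring
        _ ≤ a ^ 2 + X * lam j := Nat.add_le_add_right h2X _
        _ ≤ _ := h1
    exact Nat.le_of_mul_le_mul_left h2 hXpos
  have hn1 : 1 ≤ n := by omega
  have h2AB : 2 * (A + B) ≤ lam 1 := by
    have := hgapAB ⟨2, by omega⟩ le_rfl
    omega
  have h10 : ∀ i : Fin (n + 2), (i : ℕ) < 2 → lam 1 ≤ lam i := by
    intro i hi
    refine hlam ?_
    rw [Fin.le_def]
    have h1 : ((1 : Fin (n + 2)) : ℕ) = 1 := Fin.val_one n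
    rw [h1]
    omega
  obtain ⟨η, hsplit, hη⟩ := removal n (l + 2) A B lam hlam (fun i hi => by
      have h1 := h10 i hi
      refine ⟨by omega, fun j hj => ?_⟩
      have h2 := hgapAB j hj
      omega) (fun i hi => by
      obtain ⟨h1, h2⟩ := hgapm i hi
      refine ⟨by omega, fun j hj => ?_⟩
      have h3 := h2 j hj
      omega) (by omega)
  have hηle : ∀ i, η i ≤ lam i := fun i => by
    have := hsplit i
    omega
  have hη1 : A + B + η 1 = lam 1 := by
    have h := hsplit 1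
    have h1 : ((1 : Fin (n + 2)) : ℕ) = 1 := Fin.val_one n
    rw [h1, if_pos (by norm_num), if_pos (by omega)] at h
    exact h
  -- the number G
  obtain ⟨G, hG⟩ : ∃ G, G = a ^ 2 / (2 * X) := ⟨_, rfl⟩
  have hG1 : 2 * X * G ≤ a ^ 2 := by
    rw [hG]
    exact Nat.mul_div_le _ _
  have hG2 : a ^ 2 ≤ 2 * X * (G + 1) := by
    rw [hG]
    exact (Nat.lt_mul_div_succ _ (by omega)).le
  have hGpos : 0 < G := by
    rw [hG]
    refine Nat.div_pos ?_ (by omega)
    nlinarith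
  have hGη : ∀ i : Fin (n + 2), 2 ≤ (i : ℕ) → G + η i ≤ η 1 := by
    intro i hi
    have h1 := hgap2 i hi
    have h2 := hηle i
    have h3 : 2 * X * (G + η i) ≤ 2 * X * η 1 := by
      have e1 : 2 * X * lam 1 = 2 * X * (A + B) + 2 * X * η 1 := by
        rw [← hη1]
        ring
      have e2 : 2 * X * η i ≤ 2 * X * lam i := Nat.mul_le_mul le_rfl h2
      have e3 : 2 * X * (G + η i) = 2 * X * G + 2 * X * η i := by ring
      have e4 : 2 * X * lam 1 = 2 * (X * lam 1) := by ring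
      have e5 : 2 * X * lam i = 2 * (X * lam i) := by ring
      omega
    exact Nat.le_of_mul_le_mul_left h3 (by omega)
  have hGη1 : G ≤ η 1 := by
    have := hGη ⟨2, by omega⟩ le_rfl
    omega
  -- the lower bound
  have hlow := hLow n a b (M + 2) (l + 2) D1 D2 R2 R3 f₀ f₂ F₀ F₂ T s G lam η hND hub hmn
    (by omega) (by omega) hsum hη (by rw [← hA, ← hB]; exact hsplit) hGη hGη1
  -- rows ≥ 2
  have hηrow : ∀ i : Fin n, (if (i : ℕ) < l then B else 0) + η i.succ.succ = lam i.succ.succ := by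
    intro i
    have h := hsplit i.succ.succ
    have e : ((i.succ.succ : Fin (n + 2)) : ℕ) = i + 2 := rfl
    rw [e, if_neg (by omega), zero_add] at h
    by_cases hi : (i : ℕ) < l
    · rw [if_pos (by omega)] at h
      rw [if_pos hi]
      exact h
    · rw [if_neg (by omega)] at h
      rw [if_neg hi]
      exact h
  obtain ⟨y, hy⟩ : ∃ y, y = X ^ (K₁ + 100) * a - X ^ 14 * a := ⟨_, rfl⟩
  have hyη : ∀ i : Fin n, (i : ℕ) < l → y ≤ η i.succ.succ := by
    intro i hi
    have h1 := hηrow i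
    rw [if_pos hi] at h1
    have h2 := (hgapm i.succ.succ (by
      have e : ((i.succ.succ : Fin (n + 2)) : ℕ) = i + 2 := rfl
      omega)).1
    omega
  obtain ⟨hup, hgrow⟩ := upper2 hHalf a b M n l B y lam η (by omega) (by omega) (by omega)
    (by omega) hlam hη (fun i hi => by
      have h1 := hηrow i
      rw [if_pos hi] at h1
      obtain ⟨h2, h3⟩ := hgapm i.succ.succ (by
        have e : ((i.succ.succ : Fin (n + 2)) : ℕ) = i + 2 := rfl
        omega)
      refine ⟨by omega, fun j hj => ?_⟩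
      have h4 := h3 j.succ.succ (by
        have e : ((j.succ.succ : Fin (n + 2)) : ℕ) = j + 2 := rfl
        omega)
      have h5 := hηle j.succ.succ
      omega) (fun i => by
      have h1 := hηrow i
      omega) hyη
  -- the numbers
  have hKy : X ^ K₁ * a ≤ 2 * y := by
    have h1 : X ^ K₁ * a ≤ X ^ (K₁ + 100) * a :=
      Nat.mul_le_mul (Nat.pow_le_pow_right hXpos (by omega)) le_rfl
    omega
  have hN := hNum δ K₁ a b X (l + 2) (M + 2) y G hδ hδ1 hK₁ (by omega) hX100 hu hub' hb2u hbX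
    hm3 hmX hKy hG2
  have e1 : M + 2 - 2 = M := by omega
  have e2 : l + 2 - 2 = l := by omega
  rw [e1, e2] at hN
  rw [e1] at hlow
  have hgpos : (0 : ℝ) < (1 + (y : ℝ) / (M : ℝ)) ^ (l * (M - a)) := by positivity
  exact last l a M (gt n a (fun i : Fin n => η i.succ.succ))
    (gt n M (fun i : Fin n => η i.succ.succ)) _ _ _ _ G _ hgpos hGpos hup hgrow hlow hN

end Vale.Agent.P181.RH.H694
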